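import Vale.Agent.P269.G1.ZSpec

set_option autoImplicit false

/-!
# [ZB4] the Euler equation of the operators `S_n`
-/

namespace Vale.Agent.P269.G1.H937

open Finset.HasAntidiagonal (antidiagonal)
open Vale.Agent.P269.CI Vale.Agent.P269.G1

variable {X : CompleteIntersection} {F : ℕ → ℕ → List (Ins X) → ℂ}

theorem smul_eq (c : ℂ) (f : RR X) : c • f = cst X c * f := by
  ext α : 1
  rw [cst, MvPowerSeries.coeff_C_mul]
  ext d
  change c * PowerSeries.coeff d (MvPowerSeries.coeff α f) = _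
  simp

variable (X) in
/-- constants as a ring homomorphism -/
noncomputable def cR : ℂ →+* RR X := (MvPowerSeries.C (σ := Fin (X.dim + 1))).comp PowerSeries.C

theorem cst_eq (c : ℂ) : cst X c = cR X c := rfl

variable (hF : IsGW X F) (h1 : IsGenusOne F)

theorem mkEnd_apply (M : Fin (X.dim + 1) → Fin (X.dim + 1) → RR X) (x : AA hF h1)
    (l : Fin (X.dim + 1)) : (mkEnd hF h1 M x : AA hF h1) l = ∑ i, x i * M i l := rfl

theorem mkEnd_bas (M : Fin (X.dim + 1) → Fin (X.dim + 1) → RR X) (a l : Fin (X.dim + 1)) :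
    (mkEnd hF h1 M (QA.bas (consts hF h1) a) : AA hF h1) l = M a l := by
  rw [mkEnd_apply, Finset.sum_eq_single a]
  · rw [QA.bas_apply, if_pos rfl, one_mul]
  · intro i _ hi
    rw [QA.bas_apply, if_neg hi, zero_mul]
  · simp

theorem muO_apply (x : AA hF h1) (l : Fin (X.dim + 1)) :
    ((muO hF h1).1 x : AA hF h1) l = cst X (mu X (Sum.inl l)) * x l := by
  change ((l : ℕ) : RR X) * x l - cst X ((X.dim : ℂ) / 2) * x l = _
  rw [cst_eq, cst_eq, mu, hp, map_sub, map_natCast]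
  ring

theorem kk_nat (k : ℕ) : (kk (RR X) ((k : ℕ) : ℚ) : OO hF h1) =
    algebraMap (RR X) (OO hF h1) (cst X (k : ℂ)) := by
  unfold kk
  rw [map_natCast, map_natCast, cst_eq, map_natCast, map_natCast]

theorem S_one_comp (k : ℕ) (a l : Fin (X.dim + 1)) :
    ((SS hF h1 (k + 1)).1 (QA.bas (consts hF h1) a) : AA hF h1) l =
      ∑ b : Fin (X.dim + 1), pairingInv X (Sum.inl b) (Sum.inl l) •
        W F (Sum.inl a, k) (Sum.inl b, 0) :=
  mkEnd_bas hF h1 _ a l

/-- pairing with `e_b` in `W_trr` -/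
theorem key_trr (k : ℕ) (i a l : Fin (X.dim + 1)) :
    ∑ b : Fin (X.dim + 1), pairingInv X (Sum.inl b) (Sum.inl l) •
        ser (cor F 0 [hpow X i, (Sum.inl a, k), (Sum.inl b, 0)]) =
      ∑ j, ((SS hF h1 k).1 (QA.bas (consts hF h1) a) : AA hF h1) j * qc F i j l := by
  have h : ∀ b : Fin (X.dim + 1), ser (cor F 0 [hpow X i, (Sum.inl a, k), (Sum.inl b, 0)]) =
      ∑ j, ((SS hF h1 k).1 (QA.bas (consts hF h1) a) : AA hF h1) j *
        ser (cor F 0 [hpow X i, hpow X j, hpow X b]) := by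
    intro b
    rw [W_trr hF h1 i a b k 0]
    refine Finset.sum_congr rfl fun j _ => ?_
    rw [Finset.sum_eq_single b]
    · have : ((SS hF h1 0).1 (QA.bas (consts hF h1) b) : AA hF h1) b = 1 := by
        change (QA.bas (consts hF h1) b : AA hF h1) b = 1
        rw [QA.bas_apply, if_pos rfl]
      rw [this, mul_one]
    · intro j' _ hj'
      have : ((SS hF h1 0).1 (QA.bas (consts hF h1) b) : AA hF h1) j' = 0 := by
        change (QA.bas (consts hF h1) b : AA hF h1) j' = 0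
        rw [QA.bas_apply, if_neg hj']
      rw [this, mul_zero, zero_mul]
    · simp
  simp only [h, qc, smul_eq, Finset.mul_sum]
  rw [Finset.sum_comm]
  refine Finset.sum_congr rfl fun j _ => Finset.sum_congr rfl fun b _ => ?_
  ring

theorem pInv_pairing (c l : Fin (X.dim + 1)) (hd : deg X ≠ 0) :
    ∑ b : Fin (X.dim + 1), pairingInv X (Sum.inl b) (Sum.inl l) *
      pairing X (Sum.inl c) (Sum.inl b) = if c = l then 1 else 0 := by
  have hc : (c : ℕ) ≤ X.dim := Nat.lt_succ_iff.1 c.2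
  have hl : (l : ℕ) ≤ X.dim := Nat.lt_succ_iff.1 l.2
  simp only [pairingInv, pairing]
  rw [Finset.sum_eq_single (⟨X.dim - l, by omega⟩ : Fin (X.dim + 1))]
  · rw [if_pos (by simp only; omega)]
    by_cases h : c = l
    · subst h
      rw [if_pos (by simp only; omega), if_pos rfl, inv_mul_cancel₀ hd]
    · rw [if_neg, if_neg h, mul_zero]
      intro h'
      apply h
      apply Fin.ext
      simp only at h'
      omega
  · intro b _ hb
    rw [if_neg, zero_mul]
    intro h'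
    apply hb
    apply Fin.ext
    simp only
    omega
  · simp

theorem deg_ne : deg X ≠ 0 := by
  unfold deg
  rw [Nat.cast_ne_zero]
  intro h
  rw [List.prod_eq_zero_iff] at h
  exact absurd (X.degs_pos 0 h) (by norm_num)

theorem c1_inr (a : Fin (X.dim + 1)) (v : X.Prim) : c1 X (Sum.inl a) (Sum.inr v) = 0 := by
  simp [c1, hmul]

theorem c1_inr' (v : X.Prim) (c : Ix X) : c1 X (Sum.inr v) c = 0 := by
  cases c <;> simp [c1, hmul]

theorem mu_neg (b l : Fin (X.dim + 1)) (hb : (b : ℕ) + l = X.dim) :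
    mu X (Sum.inl b) = - mu X (Sum.inl l) := by
  have h : ((b : ℕ) : ℂ) + (l : ℕ) = X.dim := by exact_mod_cast hb
  simp only [mu, hp]
  linear_combination h

/-- the lower term -/
noncomputable def YY (F : ℕ → ℕ → List (Ins X) → ℂ) (k : ℕ) (c b : Fin (X.dim + 1)) : RR X :=
  match k with
  | 0 => cst X (pairing X (Sum.inl c) (Sum.inl b))
  | k + 1 => W F (Sum.inl c, k) (Sum.inl b, 0)

theorem euler' (k : ℕ) (a b : Fin (X.dim + 1)) :
    ∑ i, Eu hF h1 i * ser (cor F 0 [hpow X i, (Sum.inl a, k), (Sum.inl b, 0)]) =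
      cst X ((k : ℂ) + 1 + mu X (Sum.inl a) + mu X (Sum.inl b)) *
        W F (Sum.inl a, k) (Sum.inl b, 0) +
      ∑ c : Fin (X.dim + 1), cst X (c1 X (Sum.inl a) (Sum.inl c)) * YY F k c b := by
  rw [W_euler hF h1 (Sum.inl a) (Sum.inl b) k 0, if_pos rfl, add_zero]
  have h3 : (((k + 0 + 1 : ℕ) : ℂ) + mu X (Sum.inl a) + mu X (Sum.inl b)) =
      (k : ℂ) + 1 + mu X (Sum.inl a) + mu X (Sum.inl b) := by push_cast; ring
  rw [h3, smul_eq, add_assoc]
  congr 1
  rcases k with _ | k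
  · rw [if_pos rfl, if_pos ⟨rfl, rfl⟩, zero_add, Fintype.sum_sum_type, cst_eq, map_add, map_sum]
    have h4 : ∑ v : X.Prim, c1 X (Sum.inl a) (Sum.inr v) * pairing X (Sum.inr v) (Sum.inl b) =
        0 := Finset.sum_eq_zero fun v _ => by rw [c1_inr, zero_mul]
    rw [h4, map_zero, add_zero]
    exact Finset.sum_congr rfl fun c _ => map_mul _ _ _
  · rw [if_neg (Nat.succ_ne_zero k), if_neg (fun h => Nat.succ_ne_zero k h.1), add_zero,
      Fintype.sum_sum_type]
    have h4 : ∑ v : X.Prim, c1 X (Sum.inl a) (Sum.inr v) •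
        W F (Sum.inr v, k + 1 - 1) (Sum.inl b, 0) = 0 :=
      Finset.sum_eq_zero fun v _ => by rw [c1_inr, zero_smul]
    rw [h4, add_zero]
    exact Finset.sum_congr rfl fun c _ => smul_eq _ _

theorem pair_euler (k : ℕ) (a b l : Fin (X.dim + 1)) :
    cst X (pairingInv X (Sum.inl b) (Sum.inl l)) *
      ∑ i, Eu hF h1 i * ser (cor F 0 [hpow X i, (Sum.inl a, k), (Sum.inl b, 0)]) =
      cst X ((k : ℂ) + 1 + mu X (Sum.inl a) - mu X (Sum.inl l)) *
        (cst X (pairingInv X (Sum.inl b) (Sum.inl l)) * W F (Sum.inl a, k) (Sum.inl b, 0)) +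
      ∑ c : Fin (X.dim + 1), cst X (c1 X (Sum.inl a) (Sum.inl c)) *
        (cst X (pairingInv X (Sum.inl b) (Sum.inl l)) * YY F k c b) := by
  by_cases hb : (b : ℕ) + l = X.dim
  · rw [euler', mu_neg b l hb, mul_add, Finset.mul_sum, ← sub_eq_add_neg]
    have e1 := mul_left_comm (cst X (pairingInv X (Sum.inl b) (Sum.inl l)))
      (cst X ((k : ℂ) + 1 + mu X (Sum.inl a) - mu X (Sum.inl l)))
      (W F (Sum.inl a, k) (Sum.inl b, 0))
    have e2 : ∑ c : Fin (X.dim + 1), cst X (pairingInv X (Sum.inl b) (Sum.inl l)) *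
        (cst X (c1 X (Sum.inl a) (Sum.inl c)) * YY F k c b) =
        ∑ c : Fin (X.dim + 1), cst X (c1 X (Sum.inl a) (Sum.inl c)) *
        (cst X (pairingInv X (Sum.inl b) (Sum.inl l)) * YY F k c b) :=
      Finset.sum_congr rfl fun c _ => mul_left_comm _ _ _
    rw [e1, e2]
  · have h0 : pairingInv X (Sum.inl b) (Sum.inl l) = 0 := by
      simp only [pairingInv]
      rw [if_neg hb]
    rw [h0, cst_eq, map_zero, zero_mul, zero_mul, mul_zero, zero_add]
    symm
    exact Finset.sum_eq_zero fun c _ => by rw [zero_mul, mul_zero]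

theorem sum_YY (k : ℕ) (c l : Fin (X.dim + 1)) :
    ∑ b : Fin (X.dim + 1), cst X (pairingInv X (Sum.inl b) (Sum.inl l)) * YY F k c b =
      ((SS hF h1 k).1 (QA.bas (consts hF h1) c) : AA hF h1) l := by
  rcases k with _ | k
  · have h : ∀ b : Fin (X.dim + 1), cst X (pairingInv X (Sum.inl b) (Sum.inl l)) * YY F 0 c b =
        cR X (pairingInv X (Sum.inl b) (Sum.inl l) * pairing X (Sum.inl c) (Sum.inl b)) :=
      fun b => (map_mul (cR X) _ _).symm
    rw [Finset.sum_congr rfl fun b _ => h b, ← map_sum, pInv_pairing c l deg_ne]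
    change _ = (QA.bas (consts hF h1) c : AA hF h1) l
    rw [QA.bas_apply]
    by_cases hcl : c = l
    · rw [if_pos hcl, if_pos hcl.symm, map_one]
    · rw [if_neg hcl, if_neg (Ne.symm hcl), map_zero]
  · rw [S_one_comp]
    exact Finset.sum_congr rfl fun b _ => (smul_eq _ _).symm

/-- the ambient part -/
theorem main_amb (k : ℕ) (a l : Fin (X.dim + 1)) :
    ∑ i, ∑ j, Eu hF h1 i * ((SS hF h1 k).1 (QA.bas (consts hF h1) a) : AA hF h1) j *
        qc F i j l =
      cst X ((k : ℂ) + 1 + mu X (Sum.inl a) - mu X (Sum.inl l)) *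
        ((SS hF h1 (k + 1)).1 (QA.bas (consts hF h1) a) : AA hF h1) l +
      ∑ c : Fin (X.dim + 1), cst X (c1 X (Sum.inl a) (Sum.inl c)) *
        ((SS hF h1 k).1 (QA.bas (consts hF h1) c) : AA hF h1) l := by
  have h2 : ∑ i, ∑ j, Eu hF h1 i * ((SS hF h1 k).1 (QA.bas (consts hF h1) a) : AA hF h1) j *
        qc F i j l = ∑ b : Fin (X.dim + 1), cst X (pairingInv X (Sum.inl b) (Sum.inl l)) *
          ∑ i, Eu hF h1 i * ser (cor F 0 [hpow X i, (Sum.inl a, k), (Sum.inl b, 0)]) := by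
    simp only [Finset.mul_sum]
    rw [Finset.sum_comm (s := Finset.univ (α := Fin (X.dim + 1)))
      (f := fun b i => cst X (pairingInv X (Sum.inl b) (Sum.inl l)) * (Eu hF h1 i *
        ser (cor F 0 [hpow X i, (Sum.inl a, k), (Sum.inl b, 0)])))]
    refine Finset.sum_congr rfl fun i _ => ?_
    have h3 := key_trr hF h1 k i a l
    calc ∑ j, Eu hF h1 i * ((SS hF h1 k).1 (QA.bas (consts hF h1) a) : AA hF h1) j * qc F i j l
        = Eu hF h1 i * ∑ j, ((SS hF h1 k).1 (QA.bas (consts hF h1) a) : AA hF h1) j *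
            qc F i j l := by
          rw [Finset.mul_sum]
          exact Finset.sum_congr rfl fun j _ => mul_assoc _ _ _
      _ = _ := by
          rw [← h3, Finset.mul_sum]
          refine Finset.sum_congr rfl fun j _ => ?_
          rw [smul_eq, mul_left_comm]
  have e1 : ∑ b : Fin (X.dim + 1),
      cst X ((k : ℂ) + 1 + mu X (Sum.inl a) - mu X (Sum.inl l)) *
        (cst X (pairingInv X (Sum.inl b) (Sum.inl l)) * W F (Sum.inl a, k) (Sum.inl b, 0)) =
      cst X ((k : ℂ) + 1 + mu X (Sum.inl a) - mu X (Sum.inl l)) *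
        ((SS hF h1 (k + 1)).1 (QA.bas (consts hF h1) a) : AA hF h1) l := by
    rw [S_one_comp, Finset.mul_sum]
    exact Finset.sum_congr rfl fun b _ => by rw [smul_eq]
  have e2 : ∑ b : Fin (X.dim + 1), ∑ c : Fin (X.dim + 1),
      cst X (c1 X (Sum.inl a) (Sum.inl c)) *
        (cst X (pairingInv X (Sum.inl b) (Sum.inl l)) * YY F k c b) =
      ∑ c : Fin (X.dim + 1), cst X (c1 X (Sum.inl a) (Sum.inl c)) *
        ((SS hF h1 k).1 (QA.bas (consts hF h1) c) : AA hF h1) l := by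
    rw [Finset.sum_comm]
    refine Finset.sum_congr rfl fun c _ => ?_
    rw [← sum_YY, Finset.mul_sum]
  rw [h2]
  refine (Finset.sum_congr rfl fun b _ => pair_euler hF h1 k a b l).trans ?_
  refine Finset.sum_add_distrib.trans ?_
  exact congrArg₂ (· + ·) e1 e2

theorem W_prim (v w : X.Prim) (k : ℕ) :
    W F (Sum.inr v, k) (Sum.inr w, 0) = cst X (X.form v w) * Lam h1 k 0 := by
  rw [← smul_eq]
  funext α
  have h : (PowerSeries.mk fun d => cor F 0 [(Sum.inr v, k), (Sum.inr w, 0)] d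
      ((lst α).map (hpow X))) = X.form v w • PowerSeries.mk fun d =>
        Classical.choose h1.mono2 k 0 d ((lst α).map (hpow X)) := by
    ext d
    rw [PowerSeries.coeff_mk, map_smul, PowerSeries.coeff_mk]
    refine Classical.choose_spec h1.mono2 d v w k 0 _ fun x hx => ?_
    obtain ⟨j, _, rfl⟩ := List.mem_map.1 hx
    exact ⟨j, rfl⟩
  change ((∏ i, (α i).factorial : ℕ) : ℚ)⁻¹ • (PowerSeries.mk fun d =>
    cor F 0 [(Sum.inr v, k), (Sum.inr w, 0)] d ((lst α).map (hpow X))) =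
    X.form v w • (((∏ i, (α i).factorial : ℕ) : ℚ)⁻¹ • PowerSeries.mk fun d =>
        Classical.choose h1.mono2 k 0 d ((lst α).map (hpow X)))
  rw [h, smul_comm]

/-- the primitive part -/
theorem main_prim (k : ℕ) (v : X.Prim) :
    (∑ i, Eu hF h1 i * lamc h1 i) * (SS hF h1 k).2 v =
      cst X ((k : ℂ) + 1) * (SS hF h1 (k + 1)).2 v := by
  obtain ⟨w, hw⟩ : ∃ w, X.form v w ≠ 0 := by
    by_contra hcon
    push Not at hcon
    refine X.form_nondeg (Matrix.det_eq_zero_of_row_eq_zero v fun w => ?_)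
    rw [Matrix.of_apply]
    exact hcon w
  have he := W_euler hF h1 (Sum.inr v) (Sum.inr w) k 0
  have hW := W_prim h1 v w k
  have hm : mu X (Sum.inr v) + mu X (Sum.inr w) = 0 := by
    have h : ((X.hodgeP v : ℕ) : ℂ) + (X.hodgeP w : ℕ) = X.dim := by
      exact_mod_cast X.form_hodge v w hw
    simp only [mu, hp]
    linear_combination h
  have hL : ∑ i, Eu hF h1 i * ser (cor F 0 [hpow X i, (Sum.inr v, k), (Sum.inr w, 0)]) =
      cst X (X.form v w) * ((∑ i, Eu hF h1 i * lamc h1 i) * (SS hF h1 k).2 v) := by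
    rw [Finset.sum_mul, Finset.mul_sum]
    refine Finset.sum_congr rfl fun i _ => ?_
    rw [W_trr_prim hF h1 i v w k 0, smul_eq]
    have h0 : (SS hF h1 0).2 v = 1 := rfl
    rw [h0]
    ring
  have hR : ∑ i, Eu hF h1 i * ser (cor F 0 [hpow X i, (Sum.inr v, k), (Sum.inr w, 0)]) =
      cst X (X.form v w) * (cst X ((k : ℂ) + 1) * (SS hF h1 (k + 1)).2 v) := by
    rw [he, if_pos rfl, add_zero]
    have h3 : (((k + 0 + 1 : ℕ) : ℂ) + mu X (Sum.inr v) + mu X (Sum.inr w)) =
        (k : ℂ) + 1 := by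
      rw [add_assoc, hm]
      push_cast
      ring
    have h4 : (if k = 0 then (0 : RR X) else ∑ c, c1 X (Sum.inr v) c •
        W F (c, k - 1) (Sum.inr w, 0)) = 0 := by
      split_ifs
      · rfl
      · exact Finset.sum_eq_zero fun c _ => by rw [c1_inr', zero_smul]
    have h5 : (if k = 0 ∧ 0 = 0 then cst X (∑ c, c1 X (Sum.inr v) c *
        pairing X c (Sum.inr w)) else 0) = 0 := by
      split_ifs
      · rw [Finset.sum_eq_zero fun c _ => by rw [c1_inr', zero_mul], cst_eq, map_zero]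
      · rfl
    rw [h3, h4, h5, add_zero, add_zero, smul_eq, hW, mul_left_comm]
    rfl
  have hu : IsUnit (cst X (X.form v w)) := by
    rw [cst_eq]
    exact (isUnit_iff_ne_zero.2 hw).map (cR X)
  exact hu.mul_left_cancel (hL.symm.trans hR)

theorem SZ_nat (k : ℕ) : SZ hF h1 (k : ℤ) = SS hF h1 k := by
  unfold SZ
  rw [if_neg (by omega), Int.toNat_natCast]

theorem SZ_neg (n : ℤ) (hn : n < 0) : SZ hF h1 n = 0 := by
  unfold SZ
  rw [if_pos hn]

theorem mu_bas (a : Fin (X.dim + 1)) :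
    (muO hF h1).1 (QA.bas (consts hF h1) a) =
      cst X (mu X (Sum.inl a)) • QA.bas (consts hF h1) a := by
  funext l
  rw [muO_apply, QA.smul_apply, QA.bas_apply]
  by_cases h : l = a
  · rw [h]
  · rw [if_neg h, mul_zero, mul_zero]

theorem Rcl_bas (a : Fin (X.dim + 1)) :
    (Rcl hF h1).1 (QA.bas (consts hF h1) a) =
      ∑ c : Fin (X.dim + 1), cst X (c1 X (Sum.inl a) (Sum.inl c)) • QA.bas (consts hF h1) c := by
  funext l
  have e : (∑ c : Fin (X.dim + 1), cst X (c1 X (Sum.inl a) (Sum.inl c)) •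
      QA.bas (consts hF h1) c : AA hF h1) l =
      ∑ c : Fin (X.dim + 1), (cst X (c1 X (Sum.inl a) (Sum.inl c)) •
        QA.bas (consts hF h1) c : AA hF h1) l :=
    Finset.sum_apply (M := fun _ : Fin (X.dim + 1) => RR X) l Finset.univ
      (fun c => (cst X (c1 X (Sum.inl a) (Sum.inl c)) • QA.bas (consts hF h1) c : AA hF h1))
  rw [e]
  refine (mkEnd_bas hF h1 _ a l).trans ?_
  rw [Finset.sum_eq_single l]
  · rw [QA.smul_apply, QA.bas_apply, if_pos rfl, mul_one]
  · intro c _ hc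
    rw [QA.smul_apply, QA.bas_apply, if_neg (Ne.symm hc), mul_zero]
  · simp

theorem sz_succ (k : ℕ) : CC hF h1 (Eu hF h1) * SS hF h1 k =
    algebraMap (RR X) (OO hF h1) (cst X ((k : ℂ) + 1)) * SS hF h1 (k + 1) +
      SS hF h1 (k + 1) * muO hF h1 - muO hF h1 * SS hF h1 (k + 1) +
        SS hF h1 k * Rcl hF h1 := by
  refine Prod.ext ?_ ?_
  · refine (QA.bas (consts hF h1)).ext fun a => ?_
    funext l
    have e1 : (CC hF h1 (Eu hF h1) * SS hF h1 k).1 (QA.bas (consts hF h1) a) l =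
        ∑ i, ∑ j, Eu hF h1 i * ((SS hF h1 k).1 (QA.bas (consts hF h1) a) : AA hF h1) j *
        qc F i j l := rfl
    have e2 : (SS hF h1 (k + 1)).1 ((muO hF h1).1 (QA.bas (consts hF h1) a)) l =
        cst X (mu X (Sum.inl a)) *
          ((SS hF h1 (k + 1)).1 (QA.bas (consts hF h1) a) : AA hF h1) l := by
      rw [mu_bas, map_smul, QA.smul_apply]
    have e3 : (SS hF h1 k).1 ((Rcl hF h1).1 (QA.bas (consts hF h1) a)) l =
        ∑ c : Fin (X.dim + 1), cst X (c1 X (Sum.inl a) (Sum.inl c)) *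
        ((SS hF h1 k).1 (QA.bas (consts hF h1) c) : AA hF h1) l := by
      rw [Rcl_bas, map_sum]
      simp only [map_smul]
      exact Finset.sum_apply (M := fun _ : Fin (X.dim + 1) => RR X) l Finset.univ
        (fun c => (cst X (c1 X (Sum.inl a) (Sum.inl c)) •
          (SS hF h1 k).1 (QA.bas (consts hF h1) c) : AA hF h1))
    have e4 := muO_apply hF h1 ((SS hF h1 (k + 1)).1 (QA.bas (consts hF h1) a)) l
    have e5 : cst X ((k : ℂ) + 1 + mu X (Sum.inl a) - mu X (Sum.inl l)) =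
        cst X ((k : ℂ) + 1) + cst X (mu X (Sum.inl a)) - cst X (mu X (Sum.inl l)) := by
      simp only [cst_eq, map_add, map_sub]
    have e6 := main_amb hF h1 k a l
    rw [e5] at e6
    refine e1.trans (e6.trans ?_)
    change _ = cst X ((k : ℂ) + 1) *
      ((SS hF h1 (k + 1)).1 (QA.bas (consts hF h1) a) : AA hF h1) l +
      (SS hF h1 (k + 1)).1 ((muO hF h1).1 (QA.bas (consts hF h1) a)) l -
      ((muO hF h1).1 ((SS hF h1 (k + 1)).1 (QA.bas (consts hF h1) a))) l +
      (SS hF h1 k).1 ((Rcl hF h1).1 (QA.bas (consts hF h1) a)) l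
    rw [e2, e3, e4]
    ring
  · funext v
    have e1 := main_prim hF h1 k v
    change (∑ i, Eu hF h1 i * lamc h1 i) * (SS hF h1 k).2 v =
      cst X ((k : ℂ) + 1) * (SS hF h1 (k + 1)).2 v +
        (SS hF h1 (k + 1)).2 v * (muO hF h1).2 v - (muO hF h1).2 v * (SS hF h1 (k + 1)).2 v +
          (SS hF h1 k).2 v * 0
    rw [e1]
    ring

/-- **[ZB4]** -/
theorem SZ_euler (n : ℤ) : CC hF h1 (Eu hF h1) * SZ hF h1 (n - 1) =
    kk (RR X) n * SZ hF h1 n + SZ hF h1 n * muO hF h1 -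
      muO hF h1 * SZ hF h1 n + SZ hF h1 (n - 1) * Rcl hF h1 := by
  rcases lt_trichotomy n 0 with hn | hn | hn
  · rw [SZ_neg hF h1 n hn, SZ_neg hF h1 (n - 1) (by omega)]
    simp
  · subst hn
    rw [SZ_neg hF h1 (0 - 1) (by omega)]
    have h0 : SZ hF h1 0 = 1 := rfl
    have hk : (kk (RR X) ((0 : ℤ) : ℚ) : OO hF h1) = 0 := by
      unfold kk
      rw [Int.cast_zero, map_zero, map_zero]
    rw [h0, hk]
    simp
  · obtain ⟨k, rfl⟩ : ∃ k : ℕ, n = ((k + 1 : ℕ) : ℤ) := ⟨(n - 1).toNat, by omega⟩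
    have hk : (kk (RR X) ((((k + 1 : ℕ) : ℤ)) : ℚ) : OO hF h1) =
        algebraMap (RR X) (OO hF h1) (cst X ((k : ℂ) + 1)) := by
      have h2 := kk_nat hF h1 (k + 1)
      rw [Int.cast_natCast, h2, Nat.cast_succ]
    have h3 : (((k + 1 : ℕ) : ℤ) - 1) = (k : ℤ) := by omega
    rw [hk, h3, SZ_nat, SZ_nat]
    exact sz_succ hF h1 k

end Vale.Agent.P269.G1.H937
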